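import Vale.Agent.P237.Petty.Cor.Mid50.Poly

/-!
# P237: constants of the cell from `7 / (p + 2)` to `29 / 100`, `31 ≤ p ≤ 47`, middle orders
-/

namespace Vale.Agent.P237.Petty.Cor.Mid32.Cell2

open Mid50

/-- The piece on `[0, 3 / 25]`. -/
def piece1 : Piece :=
  ⟨(0), (3 / 25), (1 / 32), (9999 / 10000), (5001 / 10000), (10001 / 10000),
    (2501 / 5000), (14543 / 10000), (18347 / 2500), (0), (17003 / 10000), true⟩

/-- The piece on `[3 / 25, 1 / 4]`. -/
def piece2 : Piece :=
  ⟨(3 / 25), (1 / 4), (1 / 32), (9999 / 10000), (313 / 625), (10001 / 10000),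
    (5009 / 10000), (3771 / 2500), (1103 / 400), (0), (17003 / 10000), true⟩

/-- The piece on `[1 / 4, 9 / 20]`. -/
def piece3 : Piece :=
  ⟨(1 / 4), (9 / 20), (1 / 32), (9999 / 10000), (1257 / 2500), (10001 / 10000),
    (5029 / 10000), (3493 / 2500), (7231 / 5000), (1 / 4), (14991 / 10000), true⟩

/-- The piece on `[9 / 20, 13 / 20]`. -/
def piece4 : Piece :=
  ⟨(9 / 20), (13 / 20), (1 / 32), (9999 / 10000), (2533 / 5000), (1),
    (5067 / 10000), (3469 / 2500), (9437 / 10000), (9 / 20), (3501 / 2500), true⟩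

/-- The piece on `[13 / 20, 17 / 20]`. -/
def piece5 : Piece :=
  ⟨(13 / 20), (17 / 20), (1 / 32), (4999 / 5000), (64 / 125), (1),
    (5121 / 10000), (7141 / 5000), (3557 / 5000), (13 / 20), (13541 / 10000), true⟩

/-- The piece on `[17 / 20, 1]`. -/
def piece6 : Piece :=
  ⟨(17 / 20), (1), (1 / 32), (9997 / 10000), (2589 / 5000), (9999 / 10000),
    (259 / 500), (943 / 625), (1499 / 2500), (13 / 20), (13541 / 10000), true⟩

/-- The piece on `[1, 6 / 5]`. -/
def piece7 : Piece :=
  ⟨(1), (6 / 5), (1 / 32), (1999 / 2000), (5257 / 10000), (9997 / 10000),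
    (2629 / 5000), (15941 / 10000), (5187 / 10000), (13 / 20), (13541 / 10000), true⟩

/-- The piece on `[6 / 5, 34 / 25]`. -/
def piece8 : Piece :=
  ⟨(6 / 5), (34 / 25), (1 / 32), (1249 / 1250), (1337 / 2500), (4997 / 5000),
    (5349 / 10000), (16851 / 10000), (4563 / 10000), (13 / 20), (13541 / 10000), true⟩

/-- The piece on `[34 / 25, 2]`. -/
def piece9 : Piece :=
  ⟨(34 / 25), (2), (1 / 32), (9971 / 10000), (2841 / 5000), (499 / 500),
    (5691 / 10000), (761 / 400), (3591 / 10000), (13 / 20), (13541 / 10000), false⟩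

/-- The piece on `[2, 23 / 10]`. -/
def piece10 : Piece :=
  ⟨(2), (23 / 10), (1 / 32), (9927 / 10000), (6101 / 10000), (621 / 625),
    (6111 / 10000), (5417 / 2500), (2887 / 10000), (13 / 20), (13541 / 10000), false⟩

/-- The piece on `[23 / 10, 13 / 5]`. -/
def piece11 : Piece :=
  ⟨(23 / 10), (13 / 5), (1 / 32), (987 / 1000), (6503 / 10000), (9883 / 10000),
    (3259 / 5000), (23433 / 10000), (2563 / 10000), (13 / 20), (13541 / 10000), false⟩

/-- The piece on `[13 / 5, 59 / 20]`. -/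
def piece12 : Piece :=
  ⟨(13 / 5), (59 / 20), (1 / 32), (1953 / 2000), (442 / 625), (9789 / 10000),
    (7103 / 10000), (5079 / 2000), (571 / 2500), (13 / 20), (13541 / 10000), false⟩

/-- The piece on `[59 / 20, 33 / 10]`. -/
def piece13 : Piece :=
  ⟨(59 / 20), (33 / 10), (1 / 32), (9579 / 10000), (7867 / 10000), (601 / 625),
    (317 / 400), (27537 / 10000), (409 / 2000), (13 / 20), (13541 / 10000), false⟩

/-- The piece on `[33 / 10, 89 / 25]`. -/
def piece14 : Piece :=
  ⟨(33 / 10), (89 / 25), (1 / 32), (373 / 400), (8751 / 10000), (9369 / 10000),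
    (1767 / 2000), (29429 / 10000), (937 / 5000), (13 / 20), (13541 / 10000), false⟩

/-- The piece on `[89 / 25, 77 / 20]`. -/
def piece15 : Piece :=
  ⟨(89 / 25), (77 / 20), (1 / 32), (4477 / 5000), (9849 / 10000), (1127 / 1250),
    (10003 / 10000), (15587 / 5000), (1741 / 10000), (13 / 20), (13541 / 10000), false⟩

/-- The piece on `[77 / 20, 104 / 25]`. -/
def piece16 : Piece :=
  ⟨(77 / 20), (104 / 25), (1 / 32), (2079 / 2500), (11461 / 10000), (2099 / 2500),
    (11763 / 10000), (33073 / 10000), (1617 / 10000), (13 / 20), (13541 / 10000), false⟩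

/-- The piece on `[104 / 25, 89 / 20]`. -/
def piece17 : Piece :=
  ⟨(104 / 25), (89 / 20), (1 / 32), (3641 / 5000), (2743 / 2000), (919 / 1250),
    (7147 / 5000), (6999 / 2000), (1509 / 10000), (13 / 20), (13541 / 10000), false⟩

/-- The piece on `[89 / 20, 453 / 100]`. -/
def piece18 : Piece :=
  ⟨(89 / 20), (453 / 100), (1 / 32), (3221 / 5000), (7683 / 5000), (1293 / 2000),
    (3191 / 2000), (36171 / 10000), (29 / 200), (13 / 20), (13541 / 10000), false⟩

/-- The piece on `[453 / 100, 23 / 5]`. -/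
def piece19 : Piece :=
  ⟨(453 / 100), (23 / 5), (121 / 4000), (6261 / 10000), (15707 / 10000), (3137 / 5000),
    (16241 / 10000), (36657 / 10000), (1427 / 10000), (13 / 20), (13541 / 10000), false⟩

/-- The piece on `[23 / 5, 467 / 100]`. -/
def piece20 : Piece :=
  ⟨(23 / 5), (467 / 100), (59 / 2000), (603 / 1000), (2017 / 1250), (3017 / 5000),
    (333 / 200), (9279 / 2500), (703 / 5000), (13 / 20), (13541 / 10000), false⟩

/-- The piece on `[467 / 100, 19 / 4]`. -/
def piece21 : Piece :=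
  ⟨(467 / 100), (19 / 4), (57 / 2000), (1459 / 2500), (16491 / 10000), (5833 / 10000),
    (8479 / 5000), (9397 / 2500), (277 / 2000), (13 / 20), (13541 / 10000), false⟩

/-- The piece on `[19 / 4, 241 / 50]`. -/
def piece22 : Piece :=
  ⟨(19 / 4), (241 / 50), (11 / 400), (5659 / 10000), (16813 / 10000), (5651 / 10000),
    (8601 / 5000), (9519 / 2500), (341 / 2500), (13 / 20), (13541 / 10000), false⟩

/-- The piece on `[241 / 50, 49 / 10]`. -/
def piece23 : Piece :=
  ⟨(241 / 50), (49 / 10), (107 / 4000), (2689 / 5000), (4329 / 2500), (1341 / 2500),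
    (17681 / 10000), (38579 / 10000), (1343 / 10000), (13 / 20), (13541 / 10000), false⟩

/-- The piece on `[49 / 10, 249 / 50]`. -/
def piece24 : Piece :=
  ⟨(49 / 10), (249 / 50), (13 / 500), (5053 / 10000), (1118 / 625), (2517 / 5000),
    (2277 / 1250), (39099 / 10000), (661 / 5000), (13 / 20), (13541 / 10000), false⟩

/-- The piece on `[249 / 50, 253 / 50]`. -/
def piece25 : Piece :=
  ⟨(249 / 50), (253 / 50), (1 / 40), (4837 / 10000), (18263 / 10000), (4819 / 10000),
    (18513 / 10000), (39611 / 10000), (651 / 5000), (13 / 20), (13541 / 10000), false⟩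

/-- The piece on `[253 / 50, 257 / 50]`. -/
def piece26 : Piece :=
  ⟨(253 / 50), (257 / 50), (97 / 4000), (9 / 20), (18841 / 10000), (4483 / 10000),
    (19043 / 10000), (40139 / 10000), (641 / 5000), (13 / 20), (13541 / 10000), false⟩

/-- The piece on `[257 / 50, 261 / 50]`. -/
def piece27 : Piece :=
  ⟨(257 / 50), (261 / 50), (47 / 2000), (2077 / 5000), (9713 / 5000), (4139 / 10000),
    (9789 / 5000), (2541 / 625), (1263 / 10000), (13 / 20), (13541 / 10000), false⟩

/-- The piece on `[261 / 50, 53 / 10]`. -/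
def piece28 : Piece :=
  ⟨(261 / 50), (53 / 10), (23 / 1000), (3639 / 10000), (5071 / 2500), (1811 / 5000),
    (5103 / 2500), (4119 / 1000), (311 / 2500), (13 / 20), (13541 / 10000), false⟩

/-- The piece on `[53 / 10, 539 / 100]`. -/
def piece29 : Piece :=
  ⟨(53 / 10), (539 / 100), (89 / 4000), (3203 / 10000), (5249 / 2500), (3191 / 10000),
    (21081 / 10000), (41741 / 10000), (49 / 400), (13 / 20), (13541 / 10000), false⟩

/-- The piece on `[539 / 100, 273 / 50]`. -/
def piece30 : Piece :=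
  ⟨(539 / 100), (273 / 50), (43 / 2000), (353 / 1250), (2701 / 1250), (2819 / 10000),
    (541 / 250), (42249 / 10000), (151 / 1250), (13 / 20), (13541 / 10000), false⟩

/-- The constants. -/
def data : Data where
  mlo := 32
  mhi := 48
  hk := (6361 / 5000)
  g := (173 / 200)
  n0 := (223 / 200)
  n1 := (157 / 100)
  g1 := (203 / 100)
  a := (207 / 250)
  l0 := (-1111 / 500)
  l1 := (3521 / 1000)
  phi := (13 / 20)
  v1 := (51 / 50)
  z2 := (31 / 50)
  ev := (2673 / 2000)
  low := true
  pieces := [piece1, piece2, piece3, piece4, piece5, piece6, piece7, piece8, piece9, piece10,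
    piece11, piece12, piece13, piece14, piece15, piece16, piece17, piece18, piece19, piece20,
    piece21, piece22, piece23, piece24, piece25, piece26, piece27, piece28, piece29, piece30]
  terms := [⟨0, 0, (267 / 200)⟩, ⟨1, 0, (-3283 / 1000)⟩, ⟨2, 0, (267 / 100)⟩, ⟨3, 0, (-67 / 250)⟩,
    ⟨4, 0, (51 / 1000)⟩, ⟨5, 0, (-169 / 50000)⟩, ⟨2, 1, (-1001 / 500)⟩, ⟨3, 2, (733 / 250)⟩,
    ⟨4, 3, (-333 / 200)⟩, ⟨5, 3, (31 / 200)⟩]

end Vale.Agent.P237.Petty.Cor.Mid32.Cell2
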